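import Vale.Agent.P127.U.H824.YPat

/-!
# P127 / U / H514 : the rule with thresholds for all lengths (helper514)

`P` law, `Q` a law with `p Q ≤ P`; `H i` nested past along the path; disjoint windows
`[lo k, hi k)` of the path; `V k` a variable which is revealed at the end of the window `k`, as long
as the path is a path of `Q`.

* `reveal` : `V k` with a cemetery for the values of the past which `Q` does not see.
* `sum_reveal_le` : `∑ kap Q P (reveal k) (H (lo k)) ≤ log (1/p)`.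
* `coll_reveal_le` : `colp Q (V k) (H (lo k)) ≤ ε + (kap + 1) / log (ε / thr)` at thin starts.
* `p1star` : **total length** of the bad windows,
  `∑_{k bad} (ε log (ε / thr k) - 1) ≤ log (1/p)`.
* `p1star_len` : thresholds `2 ^ (- c j m)`.
* `group_cost` : a group costs at most `c j m` bits.
-/

set_option autoImplicit false

namespace Vale.Agent.P127.U.RStar

open Finset Vale.Agent.P127 Vale.Agent.P127.Stk Vale.Agent.P127.U.Nonat Vale.Agent.P127.U.YPat

variable {Ω : Type} [Fintype Ω] {S T U V : Type*}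

/-- the variable `X`, if the value of the past `H` is seen by `Q`; cemetery otherwise -/
noncomputable def reveal (Q : Law Ω) (X : Ω → S) (H : Ω → T) (ω : Ω) : Option S := by
  classical
  exact if ∃ ω', 0 < Q.w ω' ∧ H ω' = H ω then some (X ω) else none

theorem reveal_supp (Q : Law Ω) (X : Ω → S) (H : Ω → T) {ω : Ω} (hω : 0 < Q.w ω) :
    reveal Q X H ω = some (X ω) := by
  classical
  unfold reveal
  rw [if_pos ⟨ω, hω, rfl⟩]

theorem reveal_some {Q : Law Ω} {X : Ω → S} {H : Ω → T} {ω : Ω} {x : S}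
    (h : reveal Q X H ω = some x) : X ω = x := by
  classical
  unfold reveal at h
  split_ifs at h
  exact Option.some.inj h

/-- the revealed variable is a function of the past, on the support of `P` -/
theorem reveal_fn {P Q : Law Ω} (X : Ω → S) (H : Ω → T)
    (h : ∀ ω ω', 0 < Q.w ω → 0 < P.w ω' → H ω = H ω' → X ω = X ω') {ω ω' : Ω}
    (hω : 0 < P.w ω) (hω' : 0 < P.w ω') (e : H ω = H ω') : reveal Q X H ω = reveal Q X H ω' := by
  classical
  unfold reveal
  by_cases h1 : ∃ ω'', 0 < Q.w ω'' ∧ H ω'' = H ω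
  · obtain ⟨ω'', h2, h3⟩ := h1
    rw [if_pos ⟨ω'', h2, h3⟩, if_pos ⟨ω'', h2, h3.trans e⟩, ← h ω'' ω h2 hω h3,
      ← h ω'' ω' h2 hω' (h3.trans e)]
  · have h2 : ¬ ∃ ω'', 0 < Q.w ω'' ∧ H ω'' = H ω' := by
      rintro ⟨ω'', h2, h3⟩
      exact h1 ⟨ω'', h2, h3.trans e.symm⟩
    rw [if_neg h1, if_neg h2]

theorem pr_reveal_le (P Q : Law Ω) (X : Ω → S) (H : Ω → T) (C : Ω → U) (x : S) (c : U) :
    P.pr (fun ω => (reveal Q X H ω, C ω)) (some x, c) ≤ P.pr (fun ω => (X ω, C ω)) (x, c) := by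
  classical
  unfold Law.pr
  refine Finset.sum_le_sum_of_subset_of_nonneg ?_ fun ω _ _ => P.nn ω
  intro ω hω
  simp only [mem_filter, mem_univ, true_and, Prod.mk.injEq] at hω ⊢
  exact ⟨reveal_some hω.1, hω.2⟩

theorem cp_reveal_le {P Q : Law Ω} (X : Ω → S) (H : Ω → T) (C : Ω → U) {ω : Ω}
    (hω : 0 < Q.w ω) : cp P (reveal Q X H) C ω ≤ cp P X C ω := by
  unfold cp
  rw [reveal_supp Q X H hω]
  exact div_le_div_of_nonneg_right (pr_reveal_le P Q X H C (X ω) (C ω)) (P.pr_nonneg _ _)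

theorem cp_reveal_eq {Q : Law Ω} (X : Ω → S) (H : Ω → T) (C : Ω → U) {ω : Ω}
    (hω : 0 < Q.w ω) : cp Q (reveal Q X H) C ω = cp Q X C ω := by
  classical
  unfold cp
  rw [reveal_supp Q X H hω]
  congr 1
  unfold Law.pr
  rw [Finset.sum_filter, Finset.sum_filter]
  refine Finset.sum_congr rfl fun ω' _ => ?_
  rcases (Q.nn ω').eq_or_lt with h0 | h0
  · rw [← h0]
    split_ifs <;> rfl
  · have e : reveal Q X H ω' = some (X ω') := reveal_supp Q X H h0
    simp only [e, Prod.mk.injEq, Option.some.injEq]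

theorem colp_reveal {Q : Law Ω} (X : Ω → S) (H : Ω → T) (C : Ω → U) :
    colp Q (reveal Q X H) C = colp Q X C :=
  Q.ex_congr fun _ hω => cp_reveal_eq X H C hω

variable {Q P : Law Ω}

/-- relative entropies of windows of a nested past: general form, `F k` nested, `Y k` a function of
`F (k + 1)` -/
theorem sum_reveal_le {p : ℝ} (hp : 0 < p) (hd : ∀ ω, p * Q.w ω ≤ P.w ω) (H : ℕ → Ω → T)
    (hH : ∀ i i', i ≤ i' → ∀ ω ω', 0 < P.w ω → 0 < P.w ω' → H i' ω = H i' ω' → H i ω = H i ω')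
    (lo hi : ℕ → ℕ) (B : ℕ) (h1 : ∀ k, k < B → lo k ≤ hi k) (h2 : ∀ k, k + 1 < B → hi k ≤ lo (k + 1))
    (X : ℕ → Ω → S)
    (hX : ∀ k, k < B → ∀ ω ω', 0 < Q.w ω → 0 < P.w ω' → H (hi k) ω = H (hi k) ω' →
      X k ω = X k ω') :
    ∑ k ∈ range B, kap Q P (reveal Q (X k) (H (hi k))) (H (lo k)) ≤ Real.log (1 / p) := by
  classical
  -- the past before the window `k`; after the last window the past at its end
  set F : ℕ → Ω → T := fun k => if k < B then H (lo k) else H (hi (B - 1)) with hF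
  have h3 := sum_kap_le hp hd (fun k => reveal Q (X k) (H (hi k))) F B (by
    intro k hk ω ω' hω hω' e
    have h4 : H (hi k) ω = H (hi k) ω' := by
      by_cases hk1 : k + 1 < B
      · have e' : H (lo (k + 1)) ω = H (lo (k + 1)) ω' := by
          simpa only [hF, if_pos hk1] using e
        exact hH _ _ (h2 k hk1) ω ω' hω hω' e'
      · have e' : H (hi (B - 1)) ω = H (hi (B - 1)) ω' := by
          simpa only [hF, if_neg hk1] using e
        have : B - 1 = k := by omega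
        rwa [this] at e'
    refine ⟨?_, reveal_fn (P := P) (X k) (H (hi k)) (hX k hk) hω hω' h4⟩
    simp only [hF, if_pos hk]
    exact hH _ _ (h1 k hk) ω ω' hω hω' h4)
  refine le_trans (le_of_eq (Finset.sum_congr rfl fun k hk => ?_)) h3
  simp only [hF, if_pos (Finset.mem_range.1 hk)]

/-- collision probability of the revealed variable at a thin start -/
theorem coll_reveal_le (hQP : ∀ ω, 0 < Q.w ω → 0 < P.w ω) (X : Ω → S) (H : Ω → T) (C : Ω → U)
    {thr ε : ℝ} (ht : 0 < thr) (hε : thr < ε) (h : ∀ ω, 0 < Q.w ω → cp P X C ω ≤ thr) :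
    colp Q X C ≤ ε + (kap Q P (reveal Q X H) C + 1) / Real.log (ε / thr) := by
  rw [← colp_reveal X H C]
  exact coll_le hQP _ C ht hε fun ω hω => (cp_reveal_le X H C hω).trans (h ω hω)

/-- **(P1\*)** the total *length* of the bad windows -/
theorem p1star {p : ℝ} (hp : 0 < p) (hd : ∀ ω, p * Q.w ω ≤ P.w ω) (H : ℕ → Ω → T)
    (hH : ∀ i i', i ≤ i' → ∀ ω ω', 0 < P.w ω → 0 < P.w ω' → H i' ω = H i' ω' → H i ω = H i ω')
    (lo hi : ℕ → ℕ) (B : ℕ) (h1 : ∀ k, k < B → lo k ≤ hi k) (h2 : ∀ k, k + 1 < B → hi k ≤ lo (k + 1))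
    (X : ℕ → Ω → S)
    (hX : ∀ k, k < B → ∀ ω ω', 0 < Q.w ω → 0 < P.w ω' → H (hi k) ω = H (hi k) ω' →
      X k ω = X k ω')
    (thr : ℕ → ℝ) {ε : ℝ} (K : Finset ℕ) (hK : K ⊆ range B) (ht : ∀ k ∈ K, 0 < thr k)
    (hε : ∀ k ∈ K, thr k < ε) (hthin : ∀ k ∈ K, ∀ ω, 0 < Q.w ω → cp P (X k) (H (lo k)) ω ≤ thr k)
    (hbad : ∀ k ∈ K, 2 * ε ≤ colp Q (X k) (H (lo k))) :
    ∑ k ∈ K, (ε * Real.log (ε / thr k) - 1) ≤ Real.log (1 / p) := by
  have hQP : ∀ ω, 0 < Q.w ω → 0 < P.w ω := fun ω h => (mul_pos hp h).trans_le (hd ω)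
  have h3 := sum_reveal_le hp hd H hH lo hi B h1 h2 X hX
  refine le_trans ?_ h3
  refine le_trans (Finset.sum_le_sum (g := fun k => kap Q P (reveal Q (X k) (H (hi k))) (H (lo k)))
    fun k hk => ?_)
    (Finset.sum_le_sum_of_subset_of_nonneg hK fun k _ _ => kap_nonneg hQP _ _)
  have h4 := coll_reveal_le hQP (X k) (H (hi k)) (H (lo k)) (ht k hk) (hε k hk) (hthin k hk)
  have h5 := hbad k hk
  have hL : 0 < Real.log (ε / thr k) := Real.log_pos (by
    rw [one_lt_div (ht k hk)]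
    exact hε k hk)
  have h6 : ε ≤ (kap Q P (reveal Q (X k) (H (hi k))) (H (lo k)) + 1) / Real.log (ε / thr k) := by
    linarith
  rw [le_div_iff₀ hL] at h6
  linarith

/-- **(P1\*)** with the thresholds `2 ^ (- c j m)` of the rule, `s k = c j_k m log 2` -/
theorem p1star_len {p : ℝ} (hp : 0 < p) (hd : ∀ ω, p * Q.w ω ≤ P.w ω) (H : ℕ → Ω → T)
    (hH : ∀ i i', i ≤ i' → ∀ ω ω', 0 < P.w ω → 0 < P.w ω' → H i' ω = H i' ω' → H i ω = H i ω')
    (lo hi : ℕ → ℕ) (B : ℕ) (h1 : ∀ k, k < B → lo k ≤ hi k) (h2 : ∀ k, k + 1 < B → hi k ≤ lo (k + 1))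
    (X : ℕ → Ω → S)
    (hX : ∀ k, k < B → ∀ ω ω', 0 < Q.w ω → 0 < P.w ω' → H (hi k) ω = H (hi k) ω' →
      X k ω = X k ω')
    (s : ℕ → ℝ) {ε : ℝ} (hε0 : 0 < ε) (hε1 : ε ≤ 1) (K : Finset ℕ) (hK : K ⊆ range B)
    (hthin : ∀ k ∈ K, ∀ ω, 0 < Q.w ω → cp P (X k) (H (lo k)) ω ≤ Real.exp (-s k))
    (hbad : ∀ k ∈ K, 2 * ε ≤ colp Q (X k) (H (lo k))) :
    ε * ∑ k ∈ K, s k ≤ Real.log (1 / p) + (1 + ε * Real.log (1 / ε)) * K.card := by
  classical
  have hQP : ∀ ω, 0 < Q.w ω → 0 < P.w ω := fun ω h => (mul_pos hp h).trans_le (hd ω)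
  have hl1 : 0 ≤ Real.log (1 / ε) := Real.log_nonneg (by rwa [le_div_iff₀ hε0, one_mul])
  -- the windows with a small `s` cost nothing
  have h3 := p1star hp hd H hH lo hi B h1 h2 X hX (fun k => Real.exp (-s k)) (ε := ε)
    (K.filter fun k => Real.log (1 / ε) < s k) ((Finset.filter_subset _ _).trans hK)
    (fun k _ => Real.exp_pos _) (fun k hk => by
      have h4 := (Finset.mem_filter.1 hk).2
      rw [one_div, Real.log_inv] at h4
      rw [← Real.log_lt_log_iff (Real.exp_pos _) hε0, Real.log_exp]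
      linarith) (fun k hk => hthin k (Finset.mem_filter.1 hk).1)
    (fun k hk => hbad k (Finset.mem_filter.1 hk).1)
  have h5 : ∀ k, ε * Real.log (ε / Real.exp (-s k)) - 1 = ε * s k - (1 + ε * Real.log (1 / ε)) := by
    intro k
    rw [Real.log_div hε0.ne' (Real.exp_pos _).ne', Real.log_exp, one_div, Real.log_inv]
    ring
  simp only [h5] at h3
  have h6 : ε * ∑ k ∈ K, s k - (1 + ε * Real.log (1 / ε)) * K.card =
      ∑ k ∈ K, (ε * s k - (1 + ε * Real.log (1 / ε))) := by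
    rw [Finset.sum_sub_distrib, Finset.mul_sum, Finset.sum_const, nsmul_eq_mul]
    ring
  have h7 : ∑ k ∈ K, (ε * s k - (1 + ε * Real.log (1 / ε))) ≤
      ∑ k ∈ K.filter (fun k => Real.log (1 / ε) < s k), (ε * s k - (1 + ε * Real.log (1 / ε))) := by
    rw [Finset.sum_filter]
    refine Finset.sum_le_sum fun k _ => ?_
    split_ifs with h8
    · exact le_rfl
    · rw [not_lt] at h8
      have := mul_le_mul_of_nonneg_left h8 hε0.le
      linarith
  linarith

/-- **(P2\*)** a group costs at most its threshold: if all the values seen by `Q` have conditional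
probability `≥ a` under `P` given `C`, then `H_Q(X | C') ≤ log (1/a)`, `C'` finer than `C` -/
theorem group_cost (hQP : ∀ ω, 0 < Q.w ω → 0 < P.w ω) (X : Ω → S) (C : Ω → T) {a : ℝ} (ha : 0 < a)
    (h : ∀ ω, 0 < Q.w ω → a ≤ cp P X C ω) : hc Q X C ≤ Real.log (1 / a) := by
  classical
  have hne : ∃ ω, 0 < Q.w ω := by
    by_contra hcon
    push Not at hcon
    have h1 : ∑ ω, Q.w ω = 0 := Finset.sum_eq_zero fun ω _ => le_antisymm (hcon ω) (Q.nn ω)
    rw [Q.sum_one] at h1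
    exact one_ne_zero h1
  obtain ⟨ω1, hω1⟩ := hne
  have ha1 : a ≤ 1 := (h ω1 hω1).trans (cp_le_one P X C ω1)
  have h1a : 1 ≤ 1 / a := by rwa [le_div_iff₀ ha, one_mul]
  have hfl : 1 ≤ ⌊1 / a⌋₊ := Nat.le_floor (by exact_mod_cast h1a)
  have h1 := hc_le_log Q X C ⌊1 / a⌋₊ (by
    intro ω hω
    set A : Finset Ω := univ.filter fun ω' => 0 < Q.w ω' ∧ C ω' = C ω
    refine ⟨A.image X, ?_, fun ω' hω' e => mem_image.2 ⟨ω', by simp [A, hω', e], rfl⟩⟩
    have hF : 0 < P.pr C (C ω) := P.pr_pos C (hQP ω hω)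
    have h2 := P.sum_pr_pair_le X C (C ω) (A.image X)
    have h3 : ∑ _x ∈ A.image X, a * P.pr C (C ω) ≤
        ∑ x ∈ A.image X, P.pr (fun ω => (X ω, C ω)) (x, C ω) := by
      refine Finset.sum_le_sum fun x hx => ?_
      obtain ⟨ω', hω', rfl⟩ := mem_image.1 hx
      simp only [A, mem_filter, mem_univ, true_and] at hω'
      obtain ⟨g1, g3⟩ := hω'
      have g2 := h ω' g1
      unfold cp at g2
      rwa [le_div_iff₀ (P.pr_pos C (hQP ω' g1)), g3] at g2
    rw [Finset.sum_const, nsmul_eq_mul] at h3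
    have h4 : ((A.image X).card : ℝ) * (a * P.pr C (C ω)) ≤ P.pr C (C ω) := h3.trans h2
    have h5 : ((A.image X).card : ℝ) * a ≤ 1 := by
      have : ((A.image X).card : ℝ) * a * P.pr C (C ω) ≤ 1 * P.pr C (C ω) := by
        rw [one_mul, mul_assoc]
        exact h4
      exact le_of_mul_le_mul_right this hF
    refine Nat.le_floor ?_
    rw [le_div_iff₀ ha]
    exact h5)
  have h6 : Real.log (⌊1 / a⌋₊ : ℝ) ≤ Real.log (1 / a) :=
    Real.log_le_log (by exact_mod_cast hfl) (Nat.floor_le (by positivity))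
  linarith

end Vale.Agent.P127.U.RStar
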