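import Mathlib

/-!
# P127 / U / H514 : thin states and long runs (helper514)

`a`, `r` the levels of the path, `Th ⊆ range n` the thin indices (a-steps and forced r-steps), `n` the
length.  `nxt Th n i` : the next thin index (or `n`); the windows `[i, nxt i)`, `i ∈ Th`, partition
`[0, n)` if `0 ∈ Th`.

* `tele` : telescoping over the windows.
* `Thn` : what is used about the path; `J` = number of r-steps of the window.
* `runs_le` : `#{i < n | a (i + M) = a i} ≤ ∑_{i ∈ Th, M ≤ J i} J i`.
* `r_nxt`, `a_nxt` : `r (nxt i) = r i + m J i`, `a (nxt i) ≤ a i + m`.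
* `runs_num` : good windows by the budget of defects, bad windows by relative entropies.
-/

set_option autoImplicit false

namespace Vale.Agent.P127.U.Runs

open Finset

/-- the next thin index, or `n` -/
noncomputable def nxt (Th : Finset ℕ) (n i : ℕ) : ℕ :=
  Nat.find (p := fun j => i < j ∧ (j ∈ Th ∨ n ≤ j))
    ⟨max (i + 1) n, lt_of_lt_of_le (Nat.lt_succ_self i) (le_max_left _ _), Or.inr (le_max_right _ _)⟩

variable {Th : Finset ℕ} {n i j : ℕ}

theorem nxt_spec (Th : Finset ℕ) (n i : ℕ) :
    i < nxt Th n i ∧ (nxt Th n i ∈ Th ∨ n ≤ nxt Th n i) := by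
  unfold nxt
  exact Nat.find_spec (p := fun j => i < j ∧ (j ∈ Th ∨ n ≤ j)) _

theorem lt_nxt (Th : Finset ℕ) (n i : ℕ) : i < nxt Th n i := (nxt_spec Th n i).1

theorem nxt_min (h1 : i < j) (h2 : j < nxt Th n i) : j ∉ Th ∧ j < n := by
  unfold nxt at h2
  have h3 := Nat.find_min _ h2
  constructor
  · exact fun h => h3 ⟨h1, Or.inl h⟩
  · by_contra h
    exact h3 ⟨h1, Or.inr (not_lt.1 h)⟩

theorem nxt_le_of (h1 : i < j) (h2 : j ∈ Th ∨ n ≤ j) : nxt Th n i ≤ j := by
  unfold nxt
  exact Nat.find_min' _ ⟨h1, h2⟩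

theorem nxt_le (h : i < n) : nxt Th n i ≤ n := nxt_le_of h (Or.inr le_rfl)

theorem nxt_th (h : i < n) : nxt Th n i ∈ Th ∨ nxt Th n i = n := by
  rcases (nxt_spec Th n i).2 with h1 | h1
  · exact Or.inl h1
  · exact Or.inr (le_antisymm (nxt_le h) h1)

/-- telescoping over the windows after a thin index -/
theorem tele_aux (f : ℕ → ℝ) : ∀ k j : ℕ, j + k = n → (j ∈ Th ∨ j = n) →
    ∑ i ∈ (Ico j n).filter (fun i => i ∈ Th), (f (nxt Th n i) - f i) = f n - f j := by
  intro k
  induction k using Nat.strong_induction_on with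
  | _ k ih =>
    intro j hjk hj
    rcases Nat.eq_zero_or_pos k with hk | hk
    · subst hk
      have : j = n := by omega
      subst this
      simp
    · have hjn : j < n := by omega
      have hthj : j ∈ Th := by
        rcases hj with h | h
        · exact h
        · omega
      set j' := nxt Th n j with hj'
      have h1 : j < j' := lt_nxt Th n j
      have h2 : j' ≤ n := nxt_le hjn
      have h3 : j' ∈ Th ∨ j' = n := nxt_th hjn
      have h4 := ih (n - j') (by omega) j' (by omega) h3
      have h5 : (Ico j n).filter (fun i => i ∈ Th) =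
          insert j ((Ico j' n).filter (fun i => i ∈ Th)) := by
        ext x
        simp only [mem_filter, mem_Ico, mem_insert]
        constructor
        · rintro ⟨⟨h6, h7⟩, h8⟩
          rcases Nat.eq_or_lt_of_le h6 with h9 | h9
          · exact Or.inl h9.symm
          · right
            refine ⟨⟨?_, h7⟩, h8⟩
            by_contra h10
            exact (nxt_min h9 (not_le.1 h10)).1 h8
        · rintro (h6 | ⟨⟨h6, h7⟩, h8⟩)
          · subst h6
            exact ⟨⟨le_rfl, hjn⟩, hthj⟩
          · exact ⟨⟨by omega, h7⟩, h8⟩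
      have h6 : j ∉ (Ico j' n).filter (fun i => i ∈ Th) := by
        simp only [mem_filter, mem_Ico, not_and]
        omega
      rw [h5, Finset.sum_insert h6, h4, ← hj']
      ring

/-- **telescoping** over the windows -/
theorem tele (f : ℕ → ℝ) (hT : Th ⊆ range n) (h0 : 0 ∈ Th ∨ n = 0) :
    ∑ i ∈ Th, (f (nxt Th n i) - f i) = f n - f 0 := by
  have h1 := tele_aux (Th := Th) (n := n) f n 0 (by omega) (by
    rcases h0 with h | h
    · exact Or.inl h
    · exact Or.inr h.symm)
  have h2 : (Ico 0 n).filter (fun i => i ∈ Th) = Th := by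
    ext x
    simp only [mem_filter, mem_Ico, Nat.zero_le, true_and]
    exact ⟨fun h => h.2, fun h => ⟨mem_range.1 (hT h), h⟩⟩
  rwa [h2] at h1

/-- the last thin index before `j` -/
theorem exists_win (h0 : 0 ∈ Th) (j : ℕ) : ∃ i ∈ Th, i ≤ j ∧ ∀ k, i < k → k ≤ j → k ∉ Th := by
  have hne : (Th.filter fun k => k ≤ j).Nonempty := ⟨0, mem_filter.2 ⟨h0, Nat.zero_le _⟩⟩
  refine ⟨(Th.filter fun k => k ≤ j).max' hne, ?_, ?_, ?_⟩
  · exact (mem_filter.1 (Finset.max'_mem _ hne)).1
  · exact (mem_filter.1 (Finset.max'_mem _ hne)).2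
  · intro k h1 h2 h3
    have := Finset.le_max' (Th.filter fun k => k ≤ j) k (mem_filter.2 ⟨h3, h2⟩)
    omega

/-- what is used about the path -/
structure Thn (a r : ℕ → ℕ) (m n : ℕ) (Th : Finset ℕ) : Prop where
  sub : Th ⊆ range n
  zero : 0 ∈ Th
  blk : ∀ i < n, (a (i + 1) = a i + m ∧ r (i + 1) = r i) ∨ (a (i + 1) = a i ∧ r (i + 1) = r i + m)
  /-- a step which is not thin is an r-step -/
  step : ∀ i < n, i ∉ Th → a (i + 1) = a i
  /-- a thin r-step (forced) comes after an a-step -/
  forced : ∀ i, i + 1 ∈ Th → a (i + 2) = a (i + 1) → a i < a (i + 1)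
  /-- no r-steps from `n` on -/
  top : ∀ i, n ≤ i → a i < a (i + 1)

variable {a r : ℕ → ℕ} {m : ℕ}

namespace Thn

theorem mono_a (h : Thn a r m n Th) : Monotone a := by
  refine monotone_nat_of_le_succ fun i => ?_
  rcases lt_or_ge i n with h1 | h1
  · rcases h.blk i h1 with h2 | h2 <;> omega
  · exact (h.top i h1).le

end Thn

/-- number of r-steps of the window `[i, nxt i)` -/
noncomputable def J (a : ℕ → ℕ) (Th : Finset ℕ) (n i : ℕ) : ℕ :=
  ((Ico i (nxt Th n i)).filter fun j => a (j + 1) = a j).card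

/-- **long runs** -/
theorem Thn.runs_le (h : Thn a r m n Th) {M : ℕ} (hM : 1 ≤ M) :
    ((range n).filter fun i => a (i + M) = a i).card ≤
      ∑ i ∈ Th.filter (fun i => M ≤ J a Th n i), J a Th n i := by
  classical
  -- all the steps of a run are r-steps
  have h1 : ∀ i, a (i + M) = a i → ∀ j, i ≤ j → j < i + M → a (j + 1) = a j := by
    intro i hi j hj1 hj2
    have h2 := h.mono_a hj1
    have h3 := h.mono_a (show j ≤ j + 1 by omega)
    have h4 := h.mono_a (show j + 1 ≤ i + M by omega)
    omega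
  have h2 : (range n).filter (fun i => a (i + M) = a i) ⊆
      (Th.filter (fun i => M ≤ J a Th n i)).biUnion
        (fun i => (Ico i (nxt Th n i)).filter fun j => a (j + 1) = a j) := by
    intro i hi
    obtain ⟨hin, hi⟩ := mem_filter.1 hi
    rw [mem_range] at hin
    obtain ⟨i0, h3, h4, h5⟩ := exists_win h.zero i
    -- no thin index in `(i, i + M)`
    have h6 : ∀ k, i < k → k < i + M → k ∉ Th := by
      intro k hk1 hk2 hk3
      obtain ⟨k', rfl⟩ : ∃ k', k = k' + 1 := ⟨k - 1, by omega⟩
      have h7 := h.forced k' hk3 (h1 i hi (k' + 1) (by omega) hk2)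
      have h8 := h1 i hi k' (by omega) (by omega)
      omega
    have h7 : i + M ≤ n := by
      by_contra h8
      have h9 := h.top (max i n) (le_max_right _ _)
      have h10 := h1 i hi (max i n) (le_max_left _ _) (by omega)
      omega
    have h8 : i + M ≤ nxt Th n i0 := by
      by_contra h9
      rw [not_le] at h9
      rcases nxt_th (Th := Th) (show i0 < n by omega) with h10 | h10
      · have h11 := lt_nxt Th n i0
        rcases Nat.lt_or_ge i (nxt Th n i0) with h12 | h12
        · exact h6 _ h12 h9 h10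
        · exact h5 _ h11 h12 h10
      · omega
    refine mem_biUnion.2 ⟨i0, mem_filter.2 ⟨h3, ?_⟩, ?_⟩
    · have h9 : Ico i (i + M) ⊆ (Ico i0 (nxt Th n i0)).filter fun j => a (j + 1) = a j := by
        intro j hj
        rw [mem_Ico] at hj
        exact mem_filter.2 ⟨mem_Ico.2 ⟨by omega, by omega⟩, h1 i hi j hj.1 hj.2⟩
      have h10 := Finset.card_le_card h9
      rw [Nat.card_Ico] at h10
      unfold J
      omega
    · exact mem_filter.2 ⟨mem_Ico.2 ⟨h4, by omega⟩, h1 i hi i le_rfl (by omega)⟩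
  exact (Finset.card_le_card h2).trans Finset.card_biUnion_le

/-- the r-steps of a window -/
theorem Thn.r_sub (h : Thn a r m n Th) : ∀ k i : ℕ, i + k ≤ n →
    r (i + k) = r i + m * ((Ico i (i + k)).filter fun j => a (j + 1) = a j).card ∨ m = 0 := by
  intro k
  induction k with
  | zero => intro i _; left; simp
  | succ k ih =>
    intro i hi
    rcases ih i (by omega) with h1 | h1
    · rcases Nat.eq_zero_or_pos m with h0 | h0
      · exact Or.inr h0
      left
      have h2 : Ico i (i + (k + 1)) = insert (i + k) (Ico i (i + k)) := by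
        ext x
        simp only [mem_Ico, mem_insert]
        omega
      have h3 : (i + k) ∉ (Ico i (i + k)).filter fun j => a (j + 1) = a j := by
        simp
      rcases h.blk (i + k) (by omega) with h4 | h4
      · rw [h2, Finset.filter_insert, if_neg (by omega), ← h1, ← add_assoc]
        exact h4.2
      · rw [h2, Finset.filter_insert, if_pos h4.1, Finset.card_insert_of_notMem h3, ← add_assoc,
          h4.2, h1]
        ring
    · exact Or.inr h1

theorem Thn.r_nxt (h : Thn a r m n Th) (hm : 1 ≤ m) (hi : i ∈ Th) :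
    r (nxt Th n i) = r i + m * J a Th n i := by
  have h0 := mem_range.1 (h.sub hi)
  have h1 := lt_nxt Th n i
  have h2 := nxt_le (Th := Th) h0
  obtain ⟨k, hk⟩ : ∃ k, nxt Th n i = i + k := ⟨nxt Th n i - i, by omega⟩
  rcases h.r_sub k i (by omega) with h3 | h3
  · unfold J
    rw [hk, h3]
  · omega

theorem Thn.a_nxt (h : Thn a r m n Th) (hi : i ∈ Th) : a (nxt Th n i) ≤ a i + m := by
  have h0 := mem_range.1 (h.sub hi)
  have h1 := lt_nxt Th n i
  have h2 := nxt_le (Th := Th) h0
  have h3 : ∀ k, i + 1 + k ≤ nxt Th n i → a (i + 1 + k) = a (i + 1) := by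
    intro k
    induction k with
    | zero => intro _; rfl
    | succ k ih =>
      intro hk
      have h4 := nxt_min (Th := Th) (n := n) (i := i) (j := i + 1 + k) (by omega) (by omega)
      rw [← ih (by omega)]
      exact h.step (i + 1 + k) h4.2 h4.1
  have h4 := h3 (nxt Th n i - (i + 1)) (by omega)
  rw [show i + 1 + (nxt Th n i - (i + 1)) = nxt Th n i by omega] at h4
  rcases h.blk i h0 with h5 | h5 <;> omega

/-- **numbers** : long windows are good (defect `≥ g J - c₀`) or bad (relative entropy) -/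
theorem runs_num (Th : Finset ℕ) (J : ℕ → ℕ) (M : ℕ) (df kp ι : ℕ → ℝ) {g c₀ err A DEL KAP IOTA : ℝ}
    (hg : 0 < g) (hA : 0 ≤ A) (herr : 0 ≤ err) (hM : 2 * c₀ ≤ g * M)
    (hdf : ∀ i ∈ Th, - err ≤ df i) (hkp : ∀ i ∈ Th, 0 ≤ kp i) (hι : ∀ i ∈ Th, 0 ≤ ι i)
    (hD : ∑ i ∈ Th, df i ≤ DEL) (hK : ∑ i ∈ Th, kp i ≤ KAP) (hI : ∑ i ∈ Th, ι i ≤ IOTA)
    (h : ∀ i ∈ Th, M ≤ J i → g * J i - c₀ ≤ df i ∨ (J i : ℝ) ≤ A * (kp i + ι i + 2)) :
    ((∑ i ∈ Th.filter (fun i => M ≤ J i), J i : ℕ) : ℝ) ≤
      2 / g * (DEL + err * Th.card) + A * (KAP + IOTA + 2 * Th.card) := by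
  classical
  have h1 : ((∑ i ∈ Th.filter (fun i => M ≤ J i), J i : ℕ) : ℝ) ≤
      ∑ i ∈ Th, (2 / g * (df i + err) + A * (kp i + ι i + 2)) := by
    push_cast
    rw [Finset.sum_filter]
    refine Finset.sum_le_sum fun i hi => ?_
    have a1 : 0 ≤ 2 / g * (df i + err) := mul_nonneg (by positivity) (by linarith [hdf i hi])
    have a2 : 0 ≤ A * (kp i + ι i + 2) := mul_nonneg hA (by linarith [hkp i hi, hι i hi])
    split_ifs with h2
    · rcases h i hi h2 with h3 | h3
      · have h4 : (M : ℝ) ≤ J i := by exact_mod_cast h2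
        have h5 : g * M ≤ g * J i := mul_le_mul_of_nonneg_left h4 hg.le
        have h6 : g * J i / 2 ≤ df i + err := by linarith
        have h7 : (J i : ℝ) = 2 / g * (g * J i / 2) := by field_simp
        have h8 : 2 / g * (g * J i / 2) ≤ 2 / g * (df i + err) :=
          mul_le_mul_of_nonneg_left h6 (by positivity)
        linarith
      · linarith
    · linarith
  have h2 : ∑ i ∈ Th, (2 / g * (df i + err) + A * (kp i + ι i + 2)) =
      2 / g * (∑ i ∈ Th, df i + err * Th.card) +
        A * (∑ i ∈ Th, kp i + ∑ i ∈ Th, ι i + 2 * Th.card) := by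
    rw [Finset.sum_add_distrib, ← Finset.mul_sum, ← Finset.mul_sum, Finset.sum_add_distrib,
      Finset.sum_add_distrib, Finset.sum_add_distrib, Finset.sum_const, Finset.sum_const,
      nsmul_eq_mul, nsmul_eq_mul]
    ring
  have h3 : 2 / g * (∑ i ∈ Th, df i + err * Th.card) ≤ 2 / g * (DEL + err * Th.card) :=
    mul_le_mul_of_nonneg_left (by linarith) (by positivity)
  have h4 : A * (∑ i ∈ Th, kp i + ∑ i ∈ Th, ι i + 2 * Th.card) ≤ A * (KAP + IOTA + 2 * Th.card) :=
    mul_le_mul_of_nonneg_left (by linarith) hA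
  linarith

end Vale.Agent.P127.U.Runs
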